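import Vale.Agent.P223.Bdl.B1

namespace Vale.Agent.Results.P223.NefCanonical

open MeasureTheory Vale.Agent.P223.K

/-- Let `X` be a closed complex manifold of real dimension `n ≥ 3` with an auxiliary Hermitian
metric `h`. Suppose that for every `eta > 0` there is a Kähler metric `g0` on `X` such that
`Ric(g0) ≤ -g0 + eta h` and `vol(X, g0) ≥ V` (by Yau's theorem this holds for every closed
Kähler manifold with nef canonical bundle, `V` being the volume of the class `2 pi c1(K_X)`). Let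
`f : Y → X` be a `d`-sheeted covering by a closed manifold, with the lifted atlas (for instance
`Y = X`), and `g` a Hermitian metric on `Y`. Then the integral `I` of `(Scal_g^- / n)^(n/2)`
satisfies `d V ≤ I`, `V ‖Y‖ ≤ ‖X‖ I`, and `‖Y‖ ≤ C I` whenever `‖X‖ ≤ C V`. -/
theorem result (n : ℕ) (hn : 3 ≤ n) (J : Matrix (Fin n) (Fin n) ℝ) (hJ : J * J = -1)
    (X : Type) [TopologicalSpace X] [T2Space X] [CompactSpace X] [MeasurableSpace X]
    [BorelSpace X] (c : X → Ch n X) (hX : Atl J c)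
    (h : X → (Fin n → ℝ) → Matrix (Fin n) (Fin n) ℝ) (hh : Herm J c h) (V : ENNReal)
    (hV : ∀ eta : ℝ, 0 < eta → ∃ g0 μ0, Herm J c g0 ∧ Kah J c g0 ∧ RicLe c g0 h eta ∧
      Vol c g0 μ0 ∧ V ≤ μ0 Set.univ)
    (d : ℕ) (Y : Type) [TopologicalSpace Y] [T2Space Y] [CompactSpace Y] [MeasurableSpace Y]
    [BorelSpace Y] (c' : Y → Ch n Y) (hY : Atl J c') (f : Y → X) (hf : IsCoveringMap f)
    (hd : ∀ p, (f ⁻¹' {p}).encard = d) (hl : ∀ q p x, At (c' q) p x → At (c (f q)) (f p) x)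
    (g : Y → (Fin n → ℝ) → Matrix (Fin n) (Fin n) ℝ) (hg : Herm J c' g) (μ : Measure Y)
    (hμ : Vol c' g μ) :
    d * V ≤ I c' g μ ∧ V * sv c' ≤ sv c * I c' g μ ∧
      ∀ C : ENNReal, sv c ≤ C * V → sv c' ≤ C * I c' g μ :=
  Vale.Agent.P223.Kfinal hn hJ hX hh hV hY hf hd hl hg hμ

end Vale.Agent.Results.P223.NefCanonical
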